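import Vale.Agent.P025.R2.H722.LevCFF
import Vale.Agent.P025.R2.H722.LevAct
import Vale.Agent.P025.R2.H492.Genus

/-! # Big levels: finitely generated stable levels of genus at least two (helper722)

Abstract form: `kb` algebraically closed, `N / kb` of transcendence degree one, `F / kb` a function
field with `j : F → N`; the levels are the fields `kb (s)`, `s` a finite subset of `N`. -/

set_option linter.unusedSectionVars false

open IntermediateField

universe u v w

namespace P025H722

open P025H720 Vale.Agent.P019P

section gen

variable {kb : Type u} {F : Type v} {L : Type w} [Field kb] [Field F] [Field L] [Algebra kb F]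
  [Algebra kb L]

/-- the genus grows -/
theorem gen_le_of_algHom [CharZero kb] [CFF kb F] [CFF kb L] (φ : F →ₐ[kb] L) :
    gen kb F ≤ gen kb L := by
  let _ : Algebra F L := φ.toRingHom.toAlgebra
  have htow : IsScalarTower kb F L := IsScalarTower.of_algebraMap_eq (fun c => (φ.commutes c).symm)
  obtain ⟨x, hx, -⟩ := CFF.ex (k := kb) (F := F)
  have hfin : FiniteDimensional F L := P025H492.finite_of_transcendental (k := kb) hx
  exact P025H492.gen_le kb F L

end gen

section bc

variable (C kb L : Type u) [Field C] [Field kb]
  [IsAlgClosed kb] [IsAlgClosed C] [Field L] [Algebra kb C] [Algebra kb L]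

/-- base change does not change the genus -/
theorem gen_NC [CharZero kb] [CFF kb L] [CFF C (NC C kb L)] : gen C (NC C kb L) = gen kb L :=
  (isBC_NC C kb L).to816.gen_eq

end bc

section big

variable {kb : Type u} {N : Type v} {F : Type w} [Field kb] [Field N] [Field F] [Algebra kb N]
  [Algebra kb F]

/-- finitely many elements generate a level containing the function field `F` -/
theorem exists_gens [CFF kb F] (j : F →ₐ[kb] N) : ∃ s0 : Finset N,
    ∀ L : IntermediateField kb N, (s0 : Set N) ⊆ L → ∀ x : F, j x ∈ L := by
  classical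
  obtain ⟨t, ht, hfin⟩ := CFF.ex (k := kb) (F := F)
  let b := Module.finBasis kb⟮t⟯ F
  refine ⟨insert (j t) (Finset.univ.image (fun i => j (b i))), fun L hL => ?_⟩
  let B : IntermediateField kb F := L.comap j
  have htB : t ∈ B := hL (Finset.mem_coe.2 (Finset.mem_insert_self _ _))
  have hle : kb⟮t⟯ ≤ B := adjoin_simple_le_iff.2 htB
  intro x
  change x ∈ B
  rw [← b.sum_repr x]
  refine sum_mem (fun i _ => ?_)
  rw [Algebra.smul_def]
  refine B.mul_mem (hle (b.repr x i).2) ?_
  exact hL (Finset.mem_coe.2 (Finset.mem_insert_of_mem
    (Finset.mem_image_of_mem _ (Finset.mem_univ i))))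

/-- a function field over `kb` inside a level -/
noncomputable def toLevel (j : F →ₐ[kb] N) (L : IntermediateField kb N) (hL : ∀ x : F, j x ∈ L) :
    F →ₐ[kb] L where
  toFun x := ⟨j x, hL x⟩
  map_one' := Subtype.ext (map_one j)
  map_mul' x y := Subtype.ext (map_mul j x y)
  map_zero' := Subtype.ext (map_zero j)
  map_add' x y := Subtype.ext (map_add j x y)
  commutes' c := Subtype.ext (j.commutes c)

/-- the genus of a level containing `F` is at least the genus of `F` -/
theorem gen_le_level [CharZero kb] [CFF kb F] (j : F →ₐ[kb] N) (L : IntermediateField kb N)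
    (hL : ∀ x : F, j x ∈ L) [CFF kb L] : gen kb F ≤ gen kb L :=
  gen_le_of_algHom (toLevel j L hL)

/-- **Big levels**: every finite subset of `N` is contained in a finitely generated level which
contains `F`, is stable under the group `G`, is a function field and has at least the genus
of `F`. -/
theorem exists_big_level [CharZero kb] [IsAlgClosed kb] [TrdegOne kb N] [CFF kb F]
    (j : F →ₐ[kb] N) {G : Type*} [Group G] [TopologicalSpace G] [IsTopologicalGroup G]
    [CompactSpace G] [MulSemiringAction G kb] [MulSemiringAction G N]
    [Equi G kb N] [OpenStab G N] (t : Finset N) : ∃ s : Finset N, t ⊆ s ∧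
      (∀ (g : G) (x : N), x ∈ s → g • x ∈ s) ∧
      StableLevel G (IntermediateField.adjoin kb (s : Set N)) ∧
      (∀ x : F, j x ∈ IntermediateField.adjoin kb (s : Set N)) ∧
      ∃ _ : CFF kb (IntermediateField.adjoin kb (s : Set N)),
        gen kb F ≤ gen kb (IntermediateField.adjoin kb (s : Set N)) := by
  classical
  obtain ⟨s0, hs0⟩ := exists_gens j
  obtain ⟨x, hx, -⟩ := CFF.ex (k := kb) (F := F)
  have hX : Transcendental kb (j x) := fun halg => hx ((isAlgebraic_algHom_iff j j.injective).1 halg)
  obtain ⟨s, hts, hst, hstab⟩ := exists_stable_level G kb (insert (j x) (s0 ∪ t))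
  have hXs : j x ∈ s := hts (Finset.mem_insert_self _ _)
  have h0s : (s0 : Set N) ⊆ IntermediateField.adjoin kb (s : Set N) := by
    intro y hy
    exact IntermediateField.subset_adjoin _ _ (hts (Finset.mem_insert_of_mem
      (Finset.mem_union_left _ hy)))
  have hKL := hs0 _ h0s
  have hcff : CFF kb (IntermediateField.adjoin kb (s : Set N)) := cff_level (j x) hX s hXs
  refine ⟨s, ?_, hst, hstab, hKL, hcff, gen_le_level j _ hKL⟩
  intro y hy
  exact hts (Finset.mem_insert_of_mem (Finset.mem_union_right _ hy))

/-- every level containing a finite set is contained in a bigger one which is a function field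
(no group) -/
theorem exists_big_level' [CharZero kb] [IsAlgClosed kb] [TrdegOne kb N] [CFF kb F]
    (j : F →ₐ[kb] N) (t : Finset N) : ∃ s : Finset N, t ⊆ s ∧
      ∀ s' : Finset N, s ⊆ s' → (∀ x : F, j x ∈ IntermediateField.adjoin kb (s' : Set N)) ∧
      ∃ _ : CFF kb (IntermediateField.adjoin kb (s' : Set N)),
        gen kb F ≤ gen kb (IntermediateField.adjoin kb (s' : Set N)) := by
  classical
  obtain ⟨s0, hs0⟩ := exists_gens j
  obtain ⟨x, hx, -⟩ := CFF.ex (k := kb) (F := F)
  have hX : Transcendental kb (j x) := fun halg => hx ((isAlgebraic_algHom_iff j j.injective).1 halg)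
  refine ⟨insert (j x) (s0 ∪ t), ?_, fun s hts => ?_⟩
  · intro y hy
    exact Finset.mem_insert_of_mem (Finset.mem_union_right _ hy)
  have hXs : j x ∈ s := hts (Finset.mem_insert_self _ _)
  have h0s : (s0 : Set N) ⊆ IntermediateField.adjoin kb (s : Set N) := by
    intro y hy
    exact IntermediateField.subset_adjoin _ _ (hts (Finset.mem_insert_of_mem
      (Finset.mem_union_left _ hy)))
  have hKL := hs0 _ h0s
  have hcff : CFF kb (IntermediateField.adjoin kb (s : Set N)) := cff_level (j x) hX s hXs
  exact ⟨hKL, hcff, gen_le_level j _ hKL⟩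

end big

end P025H722
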