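import Vale.Agent.P025.R2.H722.Lev
import Vale.Agent.P025.R2.H941.BcCFF

/-! # Finite levels of `NC` are function fields (helper722) -/

set_option linter.unusedSectionVars false

open scoped TensorProduct
open Polynomial

universe u v w w'

namespace P025H722

open P025H720 P025H544 Vale.Agent.P019P

section bc

variable (C : Type u) (kb : Type v) (L : Type w) [Field C] [Field kb]
  [IsAlgClosed kb] [Field L] [Algebra kb C] [Algebra kb L]

/-- `NC C kb L` is the base change of `L` to `C` -/
theorem isBC_NC : P025H941.IsBC kb L C (NC C kb L) where
  li hv := linearIndependent_NC C kb L hv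
  gen z := by
    obtain ⟨a, b, hb, rfl⟩ := IsFractionRing.div_surjective (A := C ⊗[kb] L) z
    have h1 : ∀ x : C ⊗[kb] L, algebraMap (C ⊗[kb] L) (NC C kb L) x ∈
        P025H941.spn L C (NC C kb L) := by
      intro x
      induction x using TensorProduct.induction_on with
      | zero =>
        rw [map_zero]
        exact Submodule.zero_mem _
      | add x y hx hy =>
        rw [map_add]
        exact Submodule.add_mem _ hx hy
      | tmul c x =>
        rw [tmul_eq, ← Algebra.smul_def]
        exact Submodule.smul_mem _ _ (P025H941.mem_spn_left x)
    refine ⟨_, h1 a, _, h1 b, ?_, rfl⟩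
    rw [Ne, map_eq_zero_iff _ (IsFractionRing.injective (C ⊗[kb] L) (NC C kb L))]
    exact nonZeroDivisors.ne_zero hb

theorem cff_NC [IsAlgClosed C] [CFF kb L] : CFF C (NC C kb L) :=
  (isBC_NC C kb L).cff

theorem cff_NCT [IsAlgClosed C] [CFF kb L] (T : L) : CFF C (NCT C kb L T) :=
  cff_NC C kb L

end bc

section gen

variable {kb : Type v} {L : Type w} [Field kb] [IsAlgClosed kb] [Field L] [Algebra kb L]
  [TrdegOne kb L]

/-- finitely generated fields of transcendence degree one are function fields -/
theorem cff_of_gen (T : L) (hT : Transcendental kb T) (s : Finset L)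
    (hs : IntermediateField.adjoin kb (s : Set L) = ⊤) : CFF kb L := by
  refine ⟨inferInstance, T, hT, ?_⟩
  have hint : ∀ x : L, IsIntegral (IntermediateField.adjoin kb {T}) x := by
    intro x
    have h1 : IsAlgebraic (Algebra.adjoin kb {T}) x := TrdegOne.alg T x hT
    have h2 : IsAlgebraic (IntermediateField.adjoin kb {T}) x := by
      let φ : Algebra.adjoin kb {T} →+* IntermediateField.adjoin kb {T} :=
        (Subalgebra.inclusion (IntermediateField.algebra_adjoin_le_adjoin kb {T})).toRingHom
      exact h1.ringHom_of_comp_eq φ (RingHom.id L)
        (Subalgebra.inclusion_injective (IntermediateField.algebra_adjoin_le_adjoin kb {T}))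
        (by ext a; rfl)
    exact h2.isIntegral
  let E : IntermediateField (IntermediateField.adjoin kb {T}) L :=
    IntermediateField.adjoin (IntermediateField.adjoin kb {T}) (s : Set L)
  have hE : FiniteDimensional (IntermediateField.adjoin kb {T}) E := by
    have : Finite (s : Set L) := s.finite_toSet.to_subtype
    exact IntermediateField.finiteDimensional_adjoin (fun x _ => hint x)
  have hL : ∀ x : L, x ∈ E := by
    intro x
    have hx : x ∈ IntermediateField.adjoin kb (s : Set L) := by
      rw [hs]
      trivial
    induction hx using IntermediateField.adjoin_induction with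
    | mem x hx => exact IntermediateField.subset_adjoin _ _ hx
    | algebraMap a => exact E.algebraMap_mem (algebraMap kb (IntermediateField.adjoin kb {T}) a)
    | add a b _ _ ha hb => exact E.add_mem ha hb
    | inv a _ ha => exact E.inv_mem ha
    | mul a b _ _ ha hb => exact E.mul_mem ha hb
  have htop : E = ⊤ := by
    rw [eq_top_iff]
    intro z _
    exact hL z
  rw [htop] at hE
  exact (IntermediateField.topEquiv (F := IntermediateField.adjoin kb {T})
    (E := L)).toLinearEquiv.finiteDimensional

end gen

section level

variable {kb : Type v} {N : Type w} [Field kb] [IsAlgClosed kb] [Field N] [Algebra kb N]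
  [TrdegOne kb N]

/-- the level generated by a finite set containing `T` is a function field -/
theorem cff_level (T : N) (hT : Transcendental kb T) (s : Finset N) (hs : T ∈ s) :
    CFF kb (IntermediateField.adjoin kb (s : Set N)) := by
  classical
  let L : IntermediateField kb N := IntermediateField.adjoin kb (s : Set N)
  have : TrdegOne kb L := trdegOne_of_algHom L.val
  have hsub : (s : Set N) ⊆ L := IntermediateField.subset_adjoin _ _
  let T' : L := ⟨T, hsub hs⟩
  have hT' : Transcendental kb T' := by
    have : Fact (Transcendental kb T) := ⟨hT⟩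
    exact (fact_transcendental L.val T' (T' := T) rfl).out
  let s' : Finset L := s.attach.image (fun x => (⟨x.1, hsub x.2⟩ : L))
  refine cff_of_gen T' hT' s' ?_
  have h1 : (s' : Set L) = L.val ⁻¹' (s : Set N) := by
    ext x
    rw [Finset.mem_coe, Finset.mem_image]
    constructor
    · rintro ⟨y, -, rfl⟩
      exact y.2
    · intro hx
      exact ⟨⟨x.1, hx⟩, Finset.mem_attach _ _, rfl⟩
  have h2 : IntermediateField.map L.val (IntermediateField.adjoin kb (s' : Set L)) =
      IntermediateField.map L.val ⊤ := by
    rw [IntermediateField.adjoin_map]
    have h3 : L.val '' (s' : Set L) = (s : Set N) := by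
      rw [h1, Set.image_preimage_eq_inter_range, Set.inter_eq_left]
      intro x hx
      exact ⟨⟨x, hsub hx⟩, rfl⟩
    rw [h3]
    apply le_antisymm
    · intro x hx
      exact ⟨⟨x, hx⟩, trivial, rfl⟩
    · rintro _ ⟨y, -, rfl⟩
      exact y.2
  exact IntermediateField.map_injective L.val h2

end level

end P025H722
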